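import Mathlib.Analysis.SpecialFunctions.Trigonometric.Basic
import Mathlib.Topology.Order.Compact
import Mathlib.Topology.Order.IntermediateValue

/-!
P052, three free dimensions: the weighted circumscribed octahedron, truncated at three vertices.
-/

namespace Vale.Agent.P052.H515

open Real Set

theorem interval4 {l0 l1 l2 l3 r0 r1 r2 r3 : ℝ} (h0 : l0 ≤ r0) (h1 : l1 ≤ r1) (h2 : l2 ≤ r2)
    (h3 : l3 ≤ r3) (hl : l0 + l1 + l2 + l3 ≤ 0) (hr : 0 ≤ r0 + r1 + r2 + r3) :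
    ∃ c0 c1 c2 c3 : ℝ, c0 + c1 + c2 + c3 = 0 ∧ (l0 ≤ c0 ∧ c0 ≤ r0) ∧ (l1 ≤ c1 ∧ c1 ≤ r1) ∧
      (l2 ≤ c2 ∧ c2 ≤ r2) ∧ (l3 ≤ c3 ∧ c3 ≤ r3) := by
  obtain ⟨L, hL⟩ : ∃ L, L = l0 + l1 + l2 + l3 := ⟨_, rfl⟩
  obtain ⟨R, hR⟩ : ∃ R, R = r0 + r1 + r2 + r3 := ⟨_, rfl⟩
  rw [← hL] at hl
  rw [← hR] at hr
  rcases eq_or_lt_of_le (show L ≤ R by linarith) with h | h
  · have hL0 : L = 0 := by linarith
    exact ⟨l0, l1, l2, l3, by linarith, ⟨le_rfl, h0⟩, ⟨le_rfl, h1⟩, ⟨le_rfl, h2⟩, ⟨le_rfl, h3⟩⟩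
  · have hd : 0 < R - L := by linarith
    obtain ⟨t, ht⟩ : ∃ t, t = -L / (R - L) := ⟨_, rfl⟩
    have t0 : 0 ≤ t := by rw [ht]; exact div_nonneg (by linarith) hd.le
    have t1 : t ≤ 1 := by rw [ht, div_le_one hd]; linarith
    have e : t * (R - L) = -L := by rw [ht]; field_simp
    have k : ∀ l r : ℝ, l ≤ r → l ≤ l + t * (r - l) ∧ l + t * (r - l) ≤ r := by
      intro l r hlr
      have a := mul_nonneg t0 (sub_nonneg.2 hlr)
      have b := mul_nonneg (sub_nonneg.2 t1) (sub_nonneg.2 hlr)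
      constructor <;> nlinarith
    refine ⟨l0 + t * (r0 - l0), l1 + t * (r1 - l1), l2 + t * (r2 - l2), l3 + t * (r3 - l3), ?_,
      k _ _ h0, k _ _ h1, k _ _ h2, k _ _ h3⟩
    have : t * (r0 - l0) + t * (r1 - l1) + t * (r2 - l2) + t * (r3 - l3) = t * (R - L) := by
      rw [hR, hL]; ring
    linarith

variable {W : Type*} [TopologicalSpace W]

/-- One direction. -/
noncomputable def val (z1 z2 z3 rd : W → ℝ) (a b c θ : ℝ) (x : W) : ℝ :=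
  a * (cos θ * z1 x + sin θ * z2 x) + b * (-sin θ * z1 x + cos θ * z2 x) + c * z3 x - √3 * rd x

/-- The weighted support function. -/
noncomputable def G (K : Set W) (z1 z2 z3 rd : W → ℝ) (a b c θ : ℝ) : ℝ :=
  sSup (val z1 z2 z3 rd a b c θ '' K)

section
variable {K : Set W} (hK : IsCompact K) (hne : K.Nonempty) {z1 z2 z3 rd : W → ℝ}
  (h1 : Continuous z1) (h2 : Continuous z2) (h3 : Continuous z3) (hr : Continuous rd)

include hK h1 h2 h3 hr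

theorem continuous_G (a b c : ℝ) : Continuous (G K z1 z2 z3 rd a b c) := by
  unfold G
  refine hK.continuous_sSup (f := fun θ x => val z1 z2 z3 rd a b c θ x) ?_
  simp only [Function.HasUncurry.uncurry, id, val]
  have e1 : Continuous fun p : ℝ × W => z1 p.2 := h1.comp continuous_snd
  have e2 : Continuous fun p : ℝ × W => z2 p.2 := h2.comp continuous_snd
  have e3 : Continuous fun p : ℝ × W => z3 p.2 := h3.comp continuous_snd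
  have e4 : Continuous fun p : ℝ × W => rd p.2 := hr.comp continuous_snd
  have e5 : Continuous fun p : ℝ × W => cos p.1 := continuous_cos.comp continuous_fst
  have e6 : Continuous fun p : ℝ × W => sin p.1 := continuous_sin.comp continuous_fst
  fun_prop

theorem compact_vals (a b c θ : ℝ) : IsCompact (val z1 z2 z3 rd a b c θ '' K) := by
  refine hK.image ?_
  unfold val
  fun_prop

theorem le_G (a b c θ : ℝ) {x : W} (hx : x ∈ K) :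
    val z1 z2 z3 rd a b c θ x ≤ G K z1 z2 z3 rd a b c θ :=
  le_csSup (compact_vals hK h1 h2 h3 hr a b c θ).bddAbove ⟨x, hx, rfl⟩

include hne

theorem exists_G (a b c θ : ℝ) : ∃ x ∈ K, G K z1 z2 z3 rd a b c θ = val z1 z2 z3 rd a b c θ x := by
  obtain ⟨x, hx, h⟩ := (compact_vals hK h1 h2 h3 hr a b c θ).sSup_mem (hne.image _)
  exact ⟨x, hx, h.symm⟩

theorem G_pair (hrd : ∀ x ∈ K, 0 ≤ rd x)
    (hpair : ∀ x ∈ K, ∀ y ∈ K, (z1 x - z1 y) ^ 2 + (z2 x - z2 y) ^ 2 + (z3 x - z3 y) ^ 2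
      ≤ (rd x + rd y) ^ 2) {a b c : ℝ} (ha : a ^ 2 = 1) (hb : b ^ 2 = 1) (hc : c ^ 2 = 1) (θ : ℝ) :
    G K z1 z2 z3 rd a b c θ + G K z1 z2 z3 rd (-a) (-b) (-c) θ ≤ 0 := by
  obtain ⟨x, hx, e1⟩ := exists_G hK hne h1 h2 h3 hr a b c θ
  obtain ⟨y, hy, e2⟩ := exists_G hK hne h1 h2 h3 hr (-a) (-b) (-c) θ
  rw [e1, e2]
  have hp := hpair x hx y hy
  have hs := sin_sq_add_cos_sq θ
  have h3' : √3 ^ 2 = 3 := Real.sq_sqrt (by norm_num)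
  have hR : 0 ≤ √3 * (rd x + rd y) :=
    mul_nonneg (Real.sqrt_nonneg _) (add_nonneg (hrd x hx) (hrd y hy))
  obtain ⟨p, hp1⟩ : ∃ p, p = cos θ * (z1 x - z1 y) + sin θ * (z2 x - z2 y) := ⟨_, rfl⟩
  obtain ⟨q, hq1⟩ : ∃ q, q = -sin θ * (z1 x - z1 y) + cos θ * (z2 x - z2 y) := ⟨_, rfl⟩
  obtain ⟨w, hw1⟩ : ∃ w, w = z3 x - z3 y := ⟨_, rfl⟩
  have hpq : p ^ 2 + q ^ 2 + w ^ 2
      = (z1 x - z1 y) ^ 2 + (z2 x - z2 y) ^ 2 + (z3 x - z3 y) ^ 2 := by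
    have : p ^ 2 + q ^ 2 = (sin θ ^ 2 + cos θ ^ 2) * ((z1 x - z1 y) ^ 2 + (z2 x - z2 y) ^ 2) := by
      rw [hp1, hq1]; ring
    rw [hw1, this, hs]; ring
  have e : val z1 z2 z3 rd a b c θ x + val z1 z2 z3 rd (-a) (-b) (-c) θ y
      = a * p + b * q + c * w - √3 * (rd x + rd y) := by
    unfold val; rw [hp1, hq1, hw1]; ring
  rw [e]
  have hL : (a * p + b * q + c * w) ^ 2 ≤ 3 * (p ^ 2 + q ^ 2 + w ^ 2) := by
    have i1 := sq_nonneg (a * q - b * p)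
    have i2 := sq_nonneg (a * w - c * p)
    have i3 := sq_nonneg (b * w - c * q)
    have : (a * p + b * q + c * w) ^ 2 + (a * q - b * p) ^ 2 + (a * w - c * p) ^ 2
        + (b * w - c * q) ^ 2 = (a ^ 2 + b ^ 2 + c ^ 2) * (p ^ 2 + q ^ 2 + w ^ 2) := by ring
    rw [ha, hb, hc] at this
    linarith
  have hL2 : (a * p + b * q + c * w) ^ 2 ≤ (√3 * (rd x + rd y)) ^ 2 := by
    rw [mul_pow, h3']
    rw [hpq] at hL
    linarith
  have := abs_le_of_sq_le_sq' hL2 hR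
  linarith [this.2]

end

omit [TopologicalSpace W] in
theorem G_shift {K : Set W} {z1 z2 z3 rd : W → ℝ} (a b c θ : ℝ) :
    G K z1 z2 z3 rd a b c (θ + π / 2) = G K z1 z2 z3 rd (-b) a c θ := by
  unfold G
  have : val z1 z2 z3 rd a b c (θ + π / 2) = val z1 z2 z3 rd (-b) a c θ := by
    funext x
    unfold val
    rw [cos_add_pi_div_two, sin_add_pi_div_two]
    ring
  rw [this]

/-- **The weighted octahedron, truncated at three vertices**, with two radius functions: `rd` for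
the octahedron, `rd2` for the cuts. -/
theorem octa2 {K : Set W} (hK : IsCompact K) (hne : K.Nonempty) {z1 z2 z3 rd rd2 : W → ℝ}
    (h1 : Continuous z1) (h2 : Continuous z2) (h3 : Continuous z3) (hr : Continuous rd)
    (hrd : ∀ x ∈ K, 0 ≤ rd x)
    (hpair : ∀ x ∈ K, ∀ y ∈ K, (z1 x - z1 y) ^ 2 + (z2 x - z2 y) ^ 2 + (z3 x - z3 y) ^ 2
      ≤ (rd x + rd y) ^ 2)
    (hrd2 : ∀ x ∈ K, 0 ≤ rd2 x)
    (hpair2 : ∀ x ∈ K, ∀ y ∈ K, (z1 x - z1 y) ^ 2 + (z2 x - z2 y) ^ 2 + (z3 x - z3 y) ^ 2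
      ≤ (rd2 x + rd2 y) ^ 2) :
    ∃ q1 q2 q3 : W → ℝ, Continuous q1 ∧ Continuous q2 ∧ Continuous q3 ∧
      (∀ x y, (q1 x - q1 y) ^ 2 + (q2 x - q2 y) ^ 2 + (q3 x - q3 y) ^ 2
        = (z1 x - z1 y) ^ 2 + (z2 x - z2 y) ^ 2 + (z3 x - z3 y) ^ 2) ∧
      (∀ x ∈ K, |q1 x| + |q2 x| + |q3 x| ≤ √3 * rd x) ∧
      ∀ x ∈ K, q1 x ≤ rd2 x ∧ q2 x ≤ rd2 x ∧ q3 x ≤ rd2 x := by
  obtain ⟨F, hF⟩ : ∃ F : ℝ → ℝ → ℝ → ℝ → ℝ, F = G K z1 z2 z3 rd := ⟨_, rfl⟩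
  have hFc : ∀ a b c, Continuous (F a b c) := by
    intro a b c; rw [hF]; exact continuous_G hK h1 h2 h3 hr a b c
  have hFs : ∀ a b c θ, F a b c (θ + π / 2) = F (-b) a c θ := by
    intro a b c θ; rw [hF]; exact G_shift a b c θ
  have hFp : ∀ a b c θ : ℝ, a ^ 2 = 1 → b ^ 2 = 1 → c ^ 2 = 1 →
      F a b c θ + F (-a) (-b) (-c) θ ≤ 0 := by
    intro a b c θ ha hb hc; rw [hF]
    exact G_pair hK hne h1 h2 h3 hr hrd hpair ha hb hc θ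
  have hFl : ∀ a b c θ : ℝ, ∀ x ∈ K, val z1 z2 z3 rd a b c θ x ≤ F a b c θ := by
    intro a b c θ x hx; rw [hF]; exact le_G hK h1 h2 h3 hr a b c θ hx
  obtain ⟨A, hA⟩ : ∃ A : ℝ → ℝ, A = fun θ => F 1 1 1 θ + F 1 (-1) (-1) θ + F (-1) 1 (-1) θ
    + F (-1) (-1) 1 θ := ⟨_, rfl⟩
  obtain ⟨B, hB⟩ : ∃ B : ℝ → ℝ, B = fun θ => F (-1) (-1) (-1) θ + F (-1) 1 1 θ + F 1 (-1) 1 θ
    + F 1 1 (-1) θ := ⟨_, rfl⟩
  have hAc : Continuous A := by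
    rw [hA]
    exact (((hFc 1 1 1).add (hFc 1 (-1) (-1))).add (hFc (-1) 1 (-1))).add (hFc (-1) (-1) 1)
  have hBc : Continuous B := by
    rw [hB]
    exact (((hFc (-1) (-1) (-1)).add (hFc (-1) 1 1)).add (hFc 1 (-1) 1)).add (hFc 1 1 (-1))
  have hAB : ∀ θ, A (θ + π / 2) = B θ := by
    intro θ; rw [hA, hB]; simp only [hFs, neg_neg]; ring
  have hBA : ∀ θ, B (θ + π / 2) = A θ := by
    intro θ; rw [hA, hB]; simp only [hFs, neg_neg]; ring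
  have hsum : ∀ θ, A θ + B θ ≤ 0 := by
    intro θ
    have i1 := hFp 1 1 1 θ (by norm_num) (by norm_num) (by norm_num)
    have i2 := hFp 1 (-1) (-1) θ (by norm_num) (by norm_num) (by norm_num)
    have i3 := hFp (-1) 1 (-1) θ (by norm_num) (by norm_num) (by norm_num)
    have i4 := hFp (-1) (-1) 1 θ (by norm_num) (by norm_num) (by norm_num)
    simp only [neg_neg] at i2 i3 i4
    rw [hA, hB]
    linarith
  obtain ⟨θ, hθ⟩ : ∃ θ, A θ - B θ = 0 := by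
    have hc : Continuous fun θ => A θ - B θ := hAc.sub hBc
    have e0 : A (0 + π / 2) - B (0 + π / 2) = -(A 0 - B 0) := by rw [hAB, hBA]; ring
    rcases le_total (A 0 - B 0) 0 with h | h
    · exact mem_range_of_exists_le_of_exists_ge hc ⟨0, h⟩ ⟨0 + π / 2, by
        change 0 ≤ A (0 + π / 2) - B (0 + π / 2)
        rw [e0]; linarith⟩
    · exact mem_range_of_exists_le_of_exists_ge hc ⟨0 + π / 2, by
        change A (0 + π / 2) - B (0 + π / 2) ≤ 0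
        rw [e0]; linarith⟩ ⟨0, h⟩
  have hA0 : A θ ≤ 0 := by have := hsum θ; linarith
  have hB0 : B θ ≤ 0 := by have := hsum θ; linarith
  rw [hA] at hA0
  rw [hB] at hB0
  have i1 := hFp 1 1 1 θ (by norm_num) (by norm_num) (by norm_num)
  have i2 := hFp 1 (-1) (-1) θ (by norm_num) (by norm_num) (by norm_num)
  have i3 := hFp (-1) 1 (-1) θ (by norm_num) (by norm_num) (by norm_num)
  have i4 := hFp (-1) (-1) 1 θ (by norm_num) (by norm_num) (by norm_num)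
  simp only [neg_neg] at i2 i3 i4
  obtain ⟨ca, cb, cc, cd, hc0, ⟨la, ra⟩, ⟨lb, rb⟩, ⟨lc, rc⟩, ⟨ld, rdd⟩⟩ := interval4
    (l0 := F 1 1 1 θ) (r0 := -F (-1) (-1) (-1) θ)
    (l1 := F 1 (-1) (-1) θ) (r1 := -F (-1) 1 1 θ)
    (l2 := F (-1) 1 (-1) θ) (r2 := -F 1 (-1) 1 θ)
    (l3 := F (-1) (-1) 1 θ) (r3 := -F 1 1 (-1) θ)
    (by linarith) (by linarith) (by linarith) (by linarith) (by linarith) (by linarith)
  -- the coordinates before the reflections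
  obtain ⟨p1, hp1⟩ : ∃ p1 : W → ℝ, p1 = fun x => cos θ * z1 x + sin θ * z2 x - (ca + cb) / 2 :=
    ⟨_, rfl⟩
  obtain ⟨p2, hp2⟩ : ∃ p2 : W → ℝ, p2 = fun x => -sin θ * z1 x + cos θ * z2 x - (ca + cc) / 2 :=
    ⟨_, rfl⟩
  obtain ⟨p3, hp3⟩ : ∃ p3 : W → ℝ, p3 = fun x => z3 x - (ca + cd) / 2 := ⟨_, rfl⟩
  have c1 : Continuous p1 := by rw [hp1]; fun_prop
  have c2 : Continuous p2 := by rw [hp2]; fun_prop
  have c3 : Continuous p3 := by rw [hp3]; fun_prop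
  have hdist : ∀ x y, (p1 x - p1 y) ^ 2 + (p2 x - p2 y) ^ 2 + (p3 x - p3 y) ^ 2
      = (z1 x - z1 y) ^ 2 + (z2 x - z2 y) ^ 2 + (z3 x - z3 y) ^ 2 := by
    intro x y
    have hs := sin_sq_add_cos_sq θ
    have : (p1 x - p1 y) ^ 2 + (p2 x - p2 y) ^ 2
        = (sin θ ^ 2 + cos θ ^ 2) * ((z1 x - z1 y) ^ 2 + (z2 x - z2 y) ^ 2) := by
      rw [hp1, hp2]; ring
    rw [this, hs, hp3]; ring
  have hoct : ∀ x ∈ K, |p1 x| + |p2 x| + |p3 x| ≤ √3 * rd x := by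
    intro x hx
    have k1 := hFl 1 1 1 θ x hx
    have k2 := hFl 1 (-1) (-1) θ x hx
    have k3 := hFl (-1) 1 (-1) θ x hx
    have k4 := hFl (-1) (-1) 1 θ x hx
    have k5 := hFl (-1) (-1) (-1) θ x hx
    have k6 := hFl (-1) 1 1 θ x hx
    have k7 := hFl 1 (-1) 1 θ x hx
    have k8 := hFl 1 1 (-1) θ x hx
    unfold val at k1 k2 k3 k4 k5 k6 k7 k8
    rw [hp1, hp2, hp3]
    simp only
    rcases abs_cases (cos θ * z1 x + sin θ * z2 x - (ca + cb) / 2) with ⟨a1, _⟩ | ⟨a1, _⟩ <;>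
    rcases abs_cases (-sin θ * z1 x + cos θ * z2 x - (ca + cc) / 2) with ⟨a2, _⟩ | ⟨a2, _⟩ <;>
    rcases abs_cases (z3 x - (ca + cd) / 2) with ⟨a3, _⟩ | ⟨a3, _⟩ <;>
    · rw [a1, a2, a3]; linarith
  have hside : ∀ p : W → ℝ, (∀ x ∈ K, ∀ y ∈ K, p x - p y ≤ rd2 x + rd2 y) →
      ∃ s : ℝ, s ^ 2 = 1 ∧ |s| = 1 ∧ ∀ x ∈ K, s * p x ≤ rd2 x := by
    intro p hp
    by_cases h : ∀ x ∈ K, p x ≤ rd2 x
    · exact ⟨1, by norm_num, by norm_num, fun x hx => by rw [one_mul]; exact h x hx⟩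
    · push Not at h
      obtain ⟨x, hx, hlt⟩ := h
      refine ⟨-1, by norm_num, by norm_num, fun y hy => ?_⟩
      have := hp x hx y hy
      linarith
  have hcoord : ∀ x ∈ K, ∀ y ∈ K, p1 x - p1 y ≤ rd2 x + rd2 y ∧ p2 x - p2 y ≤ rd2 x + rd2 y ∧
      p3 x - p3 y ≤ rd2 x + rd2 y := by
    intro x hx y hy
    have e := hdist x y
    have hp := hpair2 x hx y hy
    have hR : 0 ≤ rd2 x + rd2 y := add_nonneg (hrd2 x hx) (hrd2 y hy)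
    have s1 := sq_nonneg (p1 x - p1 y)
    have s2 := sq_nonneg (p2 x - p2 y)
    have s3 := sq_nonneg (p3 x - p3 y)
    exact ⟨(abs_le_of_sq_le_sq' (by linarith) hR).2, (abs_le_of_sq_le_sq' (by linarith) hR).2,
      (abs_le_of_sq_le_sq' (by linarith) hR).2⟩
  obtain ⟨s1, t1, u1, v1⟩ := hside p1 fun x hx y hy => (hcoord x hx y hy).1
  obtain ⟨s2, t2, u2, v2⟩ := hside p2 fun x hx y hy => (hcoord x hx y hy).2.1
  obtain ⟨s3, t3, u3, v3⟩ := hside p3 fun x hx y hy => (hcoord x hx y hy).2.2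
  refine ⟨fun x => s1 * p1 x, fun x => s2 * p2 x, fun x => s3 * p3 x, by fun_prop, by fun_prop,
    by fun_prop, ?_, ?_, fun x hx => ⟨v1 x hx, v2 x hx, v3 x hx⟩⟩
  · intro x y
    have : (s1 * p1 x - s1 * p1 y) ^ 2 + (s2 * p2 x - s2 * p2 y) ^ 2 + (s3 * p3 x - s3 * p3 y) ^ 2
        = s1 ^ 2 * (p1 x - p1 y) ^ 2 + s2 ^ 2 * (p2 x - p2 y) ^ 2 + s3 ^ 2 * (p3 x - p3 y) ^ 2 := by
      ring
    rw [this, t1, t2, t3, one_mul, one_mul, one_mul]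
    exact hdist x y
  · intro x hx
    rw [abs_mul, abs_mul, abs_mul, u1, u2, u3, one_mul, one_mul, one_mul]
    exact hoct x hx

/-- One radius function. -/
theorem octa {K : Set W} (hK : IsCompact K) (hne : K.Nonempty) {z1 z2 z3 rd : W → ℝ}
    (h1 : Continuous z1) (h2 : Continuous z2) (h3 : Continuous z3) (hr : Continuous rd)
    (hrd : ∀ x ∈ K, 0 ≤ rd x)
    (hpair : ∀ x ∈ K, ∀ y ∈ K, (z1 x - z1 y) ^ 2 + (z2 x - z2 y) ^ 2 + (z3 x - z3 y) ^ 2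
      ≤ (rd x + rd y) ^ 2) :
    ∃ q1 q2 q3 : W → ℝ, Continuous q1 ∧ Continuous q2 ∧ Continuous q3 ∧
      (∀ x y, (q1 x - q1 y) ^ 2 + (q2 x - q2 y) ^ 2 + (q3 x - q3 y) ^ 2
        = (z1 x - z1 y) ^ 2 + (z2 x - z2 y) ^ 2 + (z3 x - z3 y) ^ 2) ∧
      (∀ x ∈ K, |q1 x| + |q2 x| + |q3 x| ≤ √3 * rd x) ∧
      ∀ x ∈ K, q1 x ≤ rd x ∧ q2 x ≤ rd x ∧ q3 x ≤ rd x :=
  octa2 hK hne h1 h2 h3 hr hrd hpair hrd hpair

end Vale.Agent.P052.H515
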