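import Mathlib.Tactic

/-! Class inequality for the weighted hexagon (P052, corank two). Coordinates `p 1, p 2, p 3` of sum
zero in the plane, `|z|^2 = (2/3) (p1^2 + p2^2 + p3^2)`. -/

namespace Vale.Agent.P052.H515

/-- the quadratic form -/
def g (x y : ℝ) : ℝ := x ^ 2 + x * y + y ^ 2

theorem g_nonneg (x y : ℝ) : 0 ≤ g x y := by
  unfold g; nlinarith [sq_nonneg (x + y), sq_nonneg x, sq_nonneg y]

theorem jens {l1 l2 l3 : ℝ} (h1 : 0 ≤ l1) (h2 : 0 ≤ l2) (h3 : 0 ≤ l3) (hs : l1 + l2 + l3 = 1)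
    (x1 y1 x2 y2 x3 y3 : ℝ) :
    g (l1 * x1 + l2 * x2 + l3 * x3) (l1 * y1 + l2 * y2 + l3 * y3) ≤
      l1 * g x1 y1 + l2 * g x2 y2 + l3 * g x3 y3 := by
  have e : l1 * g x1 y1 + l2 * g x2 y2 + l3 * g x3 y3
      - g (l1 * x1 + l2 * x2 + l3 * x3) (l1 * y1 + l2 * y2 + l3 * y3)
      = l1 * l2 * g (x1 - x2) (y1 - y2) + l1 * l3 * g (x1 - x3) (y1 - y3)
        + l2 * l3 * g (x2 - x3) (y2 - y3) := by
    obtain rfl : l3 = 1 - l1 - l2 := by linarith
    unfold g; ring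
  have := mul_nonneg (mul_nonneg h1 h2) (g_nonneg (x1 - x2) (y1 - y2))
  have := mul_nonneg (mul_nonneg h1 h3) (g_nonneg (x1 - x3) (y1 - y3))
  have := mul_nonneg (mul_nonneg h2 h3) (g_nonneg (x2 - x3) (y2 - y3))
  linarith

theorem jens_lt {l1 l2 l3 : ℝ} (h1 : 0 ≤ l1) (h2 : 0 ≤ l2) (h3 : 0 ≤ l3) (hs : l1 + l2 + l3 = 1)
    {x1 y1 x2 y2 x3 y3 M : ℝ} (k1 : g x1 y1 < M) (k2 : g x2 y2 < M) (k3 : g x3 y3 < M) {x y : ℝ}
    (hx : x = l1 * x1 + l2 * x2 + l3 * x3) (hy : y = l1 * y1 + l2 * y2 + l3 * y3) :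
    g x y < M := by
  subst hx; subst hy
  have := jens h1 h2 h3 hs x1 y1 x2 y2 x3 y3
  have a1 := mul_le_mul_of_nonneg_left k1.le h1
  have a2 := mul_le_mul_of_nonneg_left k2.le h2
  have a3 := mul_le_mul_of_nonneg_left k3.le h3
  have : ∃ d, 0 < d ∧ g x1 y1 ≤ M - d ∧ g x2 y2 ≤ M - d ∧ g x3 y3 ≤ M - d := by
    refine ⟨min (M - g x1 y1) (min (M - g x2 y2) (M - g x3 y3)), ?_, ?_, ?_, ?_⟩
    · simp only [lt_min_iff]; exact ⟨by linarith, by linarith, by linarith⟩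
    · linarith [min_le_left (M - g x1 y1) (min (M - g x2 y2) (M - g x3 y3))]
    · linarith [min_le_right (M - g x1 y1) (min (M - g x2 y2) (M - g x3 y3)),
        min_le_left (M - g x2 y2) (M - g x3 y3)]
    · linarith [min_le_right (M - g x1 y1) (min (M - g x2 y2) (M - g x3 y3)),
        min_le_right (M - g x2 y2) (M - g x3 y3)]
  obtain ⟨d, hd, b1, b2, b3⟩ := this
  have c1 := mul_le_mul_of_nonneg_left b1 h1
  have c2 := mul_le_mul_of_nonneg_left b2 h2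
  have c3 := mul_le_mul_of_nonneg_left b3 h3
  have : l1 * (M - d) + l2 * (M - d) + l3 * (M - d) = M - d := by
    rw [← add_mul, ← add_mul, hs, one_mul]
  linarith

/-- The class region (a pentagon): a convex quadratic is `< M` on it if it is at the five vertices. -/
theorem reg {a u v c d M : ℝ} (ha : 0 < a) (hu : u ≤ a) (hv : v ≤ a) (huv : u + v ≤ a)
    (h1 : 0 ≤ 2 * u + v) (h2 : 0 ≤ u + 2 * v)
    (hO : g (0 - c) (0 - d) < M) (hA : g (a - c) (-a / 2 - d) < M) (hB : g (a - c) (0 - d) < M)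
    (hC : g (0 - c) (a - d) < M) (hE : g (-a / 2 - c) (a - d) < M) : g (u - c) (v - d) < M := by
  have ha' : a ≠ 0 := ha.ne'
  rcases le_total 0 v with hv0 | hv0
  · rcases le_total 0 u with hu0 | hu0
    · refine jens_lt (l1 := 1 - u / a - v / a) (l2 := u / a) (l3 := v / a) ?_ (by positivity)
        (by positivity) (by ring) hO hB hC ?_ ?_
      · have : u / a + v / a ≤ 1 := by rw [← add_div, div_le_one ha]; exact huv
        linarith
      · field_simp; ring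
      · field_simp; ring
    · -- u ≤ 0 ≤ v : vertices O, C, E
      refine jens_lt (l1 := 1 - v / a) (l2 := (v + 2 * u) / a) (l3 := -2 * u / a) ?_ ?_ ?_
        (by ring) hO hC hE ?_ ?_
      · have : v / a ≤ 1 := by rw [div_le_one ha]; exact hv
        linarith
      · apply div_nonneg _ ha.le; linarith
      · apply div_nonneg _ ha.le; linarith
      · field_simp; ring
      · field_simp; ring
  · -- v ≤ 0 : vertices O, B, A
    refine jens_lt (l1 := 1 - u / a) (l2 := (u + 2 * v) / a) (l3 := -2 * v / a) ?_ ?_ ?_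
      (by ring) hO hB hA ?_ ?_
    · have : u / a ≤ 1 := by rw [div_le_one ha]; exact hu
      linarith
    · apply div_nonneg _ ha.le; linarith
    · apply div_nonneg _ ha.le; linarith
    · field_simp; ring
    · field_simp; ring

theorem g_neg (x y : ℝ) : g (-x) (-y) = g x y := by unfold g; ring

theorem g_flip (x y z w : ℝ) : g (x - z) (y - w) = g (z - x) (w - y) := by unfold g; ring

/-- **Class inequality.** -/
theorem cls {a b M p1 p2 p3 q1 q2 q3 : ℝ} (ha : 0 < a) (hb : 0 < b)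
    (h1 : a ^ 2 + a * b + b ^ 2 < M) (h2 : a ^ 2 + 4 / 3 * b ^ 2 < M)
    (h3 : 4 / 3 * a ^ 2 + b ^ 2 < M)
    (hp : p1 + p2 + p3 = 0) (hq : q1 + q2 + q3 = 0)
    (p12 : p1 ≤ p2) (p13 : p1 ≤ p3) (q12 : q1 ≤ q2) (q13 : q1 ≤ q3)
    (pa1 : |p1| ≤ a) (pa2 : |p2| ≤ a) (pa3 : |p3| ≤ a)
    (qb1 : |q1| ≤ b) (qb2 : |q2| ≤ b) (qb3 : |q3| ≤ b) :
    2 / 3 * ((p1 - q1) ^ 2 + (p2 - q2) ^ 2 + (p3 - q3) ^ 2) < M := by
  rw [abs_le] at pa1 pa2 pa3 qb1 qb2 qb3
  have hp1 : p1 = -p2 - p3 := by linarith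
  have hq1 : q1 = -q2 - q3 := by linarith
  have hab := mul_pos ha hb
  suffices h : g (p2 - q2) (p3 - q3) < 3 / 4 * M by
    have e : 2 / 3 * ((p1 - q1) ^ 2 + (p2 - q2) ^ 2 + (p3 - q3) ^ 2)
        = 4 / 3 * g (p2 - q2) (p3 - q3) := by
      rw [hp1, hq1]; unfold g; ring
    rw [e]; linarith
  have V : ∀ x y : ℝ, g (x - 0) (y - 0) < 3 / 4 * M → g (x - b) (y - -b / 2) < 3 / 4 * M →
      g (x - b) (y - 0) < 3 / 4 * M → g (x - 0) (y - b) < 3 / 4 * M →
      g (x - -b / 2) (y - b) < 3 / 4 * M → g (x - q2) (y - q3) < 3 / 4 * M := by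
    intro x y k1 k2 k3 k4 k5
    rw [g_flip] at k1 k2 k3 k4 k5 ⊢
    exact reg hb (by linarith [qb2.2]) (by linarith [qb3.2]) (by linarith [qb1.1])
      (by linarith) (by linarith) k1 k2 k3 k4 k5
  have A0 : 0 < a ^ 2 := by positivity
  have B0 : 0 < b ^ 2 := by positivity
  have cs : (a ^ 2 ≤ a * b ∧ a * b ≤ b ^ 2) ∨ (b ^ 2 ≤ a * b ∧ a * b ≤ a ^ 2) := by
    rcases le_total a b with h | h
    · left; constructor <;> nlinarith
    · right; constructor <;> nlinarith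
  refine reg ha (by linarith [pa2.2]) (by linarith [pa3.2]) (by linarith [pa1.1])
    (by linarith) (by linarith) ?_ ?_ ?_ ?_ ?_
  all_goals
    refine V _ _ ?_ ?_ ?_ ?_ ?_ <;> unfold g <;> rcases cs with ⟨c1, c2⟩ | ⟨c1, c2⟩ <;> linarith

end Vale.Agent.P052.H515
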