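import Vale.Agent.P052.H25.Pent

/-! P052: the corner inequalities for blocks of ranks `p`, `q` with `p + q ≤ 15`, and for one
irreducible block. -/

namespace Vale.Agent.P052.H515

open Vale.Agent.P052.H25

theorem good_scale {D t a b : ℝ} (hD : 0 < D) (h : Good t a b) : Good (D * t) (D * a) (D * b) := by
  obtain ⟨h1, h2, h3, h4, h5⟩ := h
  have hD2 : 0 < D ^ 2 := by positivity
  refine ⟨?_, ?_, ?_, ?_, ?_⟩
  · have := mul_lt_mul_of_pos_left h1 hD2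
    linarith
  · have := mul_lt_mul_of_pos_left h2 hD2
    linarith
  · have := mul_lt_mul_of_pos_left h3 hD2
    linarith
  · have := mul_lt_mul_of_pos_left h4 hD2
    linarith
  · have := mul_lt_mul_of_pos_left h5 hD2
    linarith

theorem low {r s : ℝ} (hr0 : 0 < r) (hr : r ≤ 1 / 2) (hs0 : 0 < s) (h : r + s ≤ 34 * (r * s)) :
    1 / 32 ≤ s := by
  have h1 : 0 < 34 * r - 1 := by
    by_contra hc
    have : (34 * r - 1) * s ≤ 0 := mul_nonpos_of_nonpos_of_nonneg (not_lt.1 hc) hs0.le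
    nlinarith
  by_contra hc
  have hc' : s < 1 / 32 := not_le.1 hc
  have : (34 * r - 1) * s < (34 * r - 1) * (1 / 32) := mul_lt_mul_of_pos_left hc' h1
  nlinarith

theorem form1 {r s : ℝ} (hr0 : 0 < r) (hr : r ≤ 1 / 2) (hs : 1 / 32 ≤ s) :
    4 / 3 * (25 * r / 29 + 29 / 200) ^ 2 < r + s := by
  nlinarith [mul_nonneg hr0.le (sub_nonneg.2 hr)]

theorem form3 {r s : ℝ} (hr0 : 1 / 32 ≤ r) (hr : r ≤ 1 / 2) (hs0 : 1 / 32 ≤ s) (hs : s ≤ 1 / 2)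
    (h : r + s ≤ 34 * (r * s)) :
    4 / 3 * ((25 * r / 29 + 29 / 200) ^ 2 + (25 * r / 29 + 29 / 200) * (25 * s / 29 + 29 / 200) / 2
      + (25 * s / 29 + 29 / 200) ^ 2 / 4) < r + s := by
  rcases le_total r (9 / 200) with h1 | h1
  · have h2 : 34 * (r * s) ≤ 34 * (9 / 200 * s) := by nlinarith
    have h3 : 1 / 20 ≤ s := by linarith
    nlinarith [mul_nonneg (sub_nonneg.2 hr0) (sub_nonneg.2 h1),
      mul_nonneg (sub_nonneg.2 h3) (sub_nonneg.2 hs), mul_nonneg (sub_nonneg.2 hs) (sub_nonneg.2 hr0)]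
  · nlinarith [mul_nonneg (sub_nonneg.2 h1) (sub_nonneg.2 hr),
      mul_nonneg (sub_nonneg.2 hs0) (sub_nonneg.2 hs), mul_nonneg (sub_nonneg.2 hs0) (sub_nonneg.2 hr)]

theorem form5 {r s : ℝ} (hr0 : 1 / 32 ≤ r) (hr : r ≤ 1 / 2) (hs0 : 1 / 32 ≤ s) (hs : s ≤ 1 / 2)
    (h : r + s ≤ 34 * (r * s)) :
    (25 * r / 29 + 29 / 200) ^ 2 + (25 * r / 29 + 29 / 200) * (25 * s / 29 + 29 / 200)
      + (25 * s / 29 + 29 / 200) ^ 2 < r + s := by
  obtain ⟨S, hS⟩ : ∃ S, S = r + s := ⟨_, rfl⟩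
  obtain ⟨Q, hQ⟩ : ∃ Q, Q = r * s := ⟨_, rfl⟩
  have e : (25 * r / 29 + 29 / 200) ^ 2 + (25 * r / 29 + 29 / 200) * (25 * s / 29 + 29 / 200)
      + (25 * s / 29 + 29 / 200) ^ 2 = 625 / 841 * (S ^ 2 - Q) + 3 / 8 * S + 2523 / 40000 := by
    rw [hS, hQ]; ring
  rw [e, ← hS]
  have h1 : S / 34 ≤ Q := by rw [hS, hQ]; linarith
  have h2 : S / 2 - 1 / 4 ≤ Q := by
    rw [hS, hQ]; nlinarith [mul_nonneg (sub_nonneg.2 hr) (sub_nonneg.2 hs)]
  have h3 : Q ≤ S ^ 2 / 4 := by rw [hS, hQ]; nlinarith [sq_nonneg (r - s)]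
  have hS0 : 0 < S := by rw [hS]; linarith
  have hS1 : S ≤ 1 := by rw [hS]; linarith
  have h4 : 2 / 17 ≤ S := by
    by_contra hc
    have hc' : S < 2 / 17 := not_le.1 hc
    nlinarith
  rcases le_total S (3 / 4) with h5 | h5
  · nlinarith [mul_nonneg (sub_nonneg.2 h4) (sub_nonneg.2 h5)]
  · nlinarith [mul_nonneg (sub_nonneg.2 h5) (sub_nonneg.2 hS1)]

theorem good_unit {r s : ℝ} (hr0 : 0 < r) (hr : r ≤ 1 / 2) (hs0 : 0 < s) (hs : s ≤ 1 / 2)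
    (h : r + s ≤ 34 * (r * s)) :
    Good (29 / 50) (25 * r / 29 + 29 / 200) (25 * s / 29 + 29 / 200) := by
  have hs1 := low hr0 hr hs0 h
  have h' : s + r ≤ 34 * (s * r) := by rw [mul_comm s r, add_comm]; exact h
  have hr1 := low hs0 hs hr0 h'
  have e : 2 * (29 / 50) * ((25 * r / 29 + 29 / 200) + (25 * s / 29 + 29 / 200)) - (29 / 50) ^ 2
      = r + s := by ring
  unfold Good
  rw [e]
  refine ⟨form1 hr0 hr hs1, ?_, form3 hr1 hr hs1 hs h, ?_, form5 hr1 hr hs1 hs h⟩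
  · rw [add_comm r s]; exact form1 hs0 hs hr1
  · have := form3 hs1 hs hr1 hr h'
    linarith

theorem good_sum {D ρ σ : ℝ} (hD : 0 < D) (p q : ℕ) (hpq : p + q ≤ 15)
    (hρ : D ^ 2 / (2 * (p + 1)) ≤ ρ) (hσ : D ^ 2 / (2 * (q + 1)) ≤ σ)
    (hρ1 : ρ ≤ D ^ 2 / 2) (hσ1 : σ ≤ D ^ 2 / 2) :
    Good (29 * D / 50) (ρ / (2 * (29 * D / 50)) + (29 * D / 50) / 4)
      (σ / (2 * (29 * D / 50)) + (29 * D / 50) / 4) := by
  have hD2 : 0 < D ^ 2 := by positivity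
  have hp : (0 : ℝ) < 2 * (p + 1) := by positivity
  have hq : (0 : ℝ) < 2 * (q + 1) := by positivity
  obtain ⟨r, hr⟩ : ∃ r, r = ρ / D ^ 2 := ⟨_, rfl⟩
  obtain ⟨s, hs⟩ : ∃ s, s = σ / D ^ 2 := ⟨_, rfl⟩
  have r1 : 1 / (2 * (p + 1)) ≤ r := by
    rw [hr, le_div_iff₀ hD2]
    calc 1 / (2 * ((p : ℝ) + 1)) * D ^ 2 = D ^ 2 / (2 * (p + 1)) := by ring
      _ ≤ ρ := hρ
  have s1 : 1 / (2 * (q + 1)) ≤ s := by
    rw [hs, le_div_iff₀ hD2]
    calc 1 / (2 * ((q : ℝ) + 1)) * D ^ 2 = D ^ 2 / (2 * (q + 1)) := by ring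
      _ ≤ σ := hσ
  have r2 : r ≤ 1 / 2 := by rw [hr, div_le_iff₀ hD2]; linarith
  have s2 : s ≤ 1 / 2 := by rw [hs, div_le_iff₀ hD2]; linarith
  have r0 : 0 < r := lt_of_lt_of_le (by positivity) r1
  have s0 : 0 < s := lt_of_lt_of_le (by positivity) s1
  have r3 : 1 ≤ 2 * (p + 1) * r := by
    rw [div_le_iff₀ hp] at r1; linarith
  have s3 : 1 ≤ 2 * (q + 1) * s := by
    rw [div_le_iff₀ hq] at s1; linarith
  have key : r + s ≤ 34 * (r * s) := by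
    have a1 : s ≤ 2 * (p + 1) * (r * s) := by nlinarith
    have a2 : r ≤ 2 * (q + 1) * (r * s) := by nlinarith
    have a3 : ((p : ℝ) + q) ≤ 15 := by exact_mod_cast hpq
    have a4 : 0 < r * s := mul_pos r0 s0
    nlinarith
  have := good_scale hD (good_unit r0 r2 s0 s2 key)
  have e1 : D * (29 / 50) = 29 * D / 50 := by ring
  have e2 : D * (25 * r / 29 + 29 / 200) = ρ / (2 * (29 * D / 50)) + (29 * D / 50) / 4 := by
    rw [hr]; field_simp; ring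
  have e3 : D * (25 * s / 29 + 29 / 200) = σ / (2 * (29 * D / 50)) + (29 * D / 50) / 4 := by
    rw [hs]; field_simp; ring
  rw [e1, e2, e3] at this
  exact this

/-- One irreducible block: `σ = D ^ 2 / 2` and `ρ` arbitrary, at the scale `t = 3 D / 5`. (At the
scale `29 D / 50` this is false for `ρ < D ^ 2 / 120`.) -/
theorem good_zero {D ρ : ℝ} (hD : 0 < D) (hρ0 : 0 ≤ ρ) (hρ : ρ ≤ D ^ 2 / 2) :
    Good (3 * D / 5) (ρ / (2 * (3 * D / 5)) + (3 * D / 5) / 4)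
      (D ^ 2 / 2 / (2 * (3 * D / 5)) + (3 * D / 5) / 4) := by
  have hD2 : 0 < D ^ 2 := by positivity
  obtain ⟨r, hr⟩ : ∃ r, r = ρ / D ^ 2 := ⟨_, rfl⟩
  have r0 : 0 ≤ r := by rw [hr]; positivity
  have r2 : r ≤ 1 / 2 := by rw [hr, div_le_iff₀ hD2]; linarith
  have r3 := mul_nonneg r0 (sub_nonneg.2 r2)
  have g : Good (3 / 5) (5 * r / 6 + 3 / 20) (17 / 30) := by
    refine ⟨?_, ?_, ?_, ?_, ?_⟩ <;> nlinarith
  have := good_scale hD g
  have e1 : D * (3 / 5) = 3 * D / 5 := by ring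
  have e2 : D * (5 * r / 6 + 3 / 20) = ρ / (2 * (3 * D / 5)) + (3 * D / 5) / 4 := by
    rw [hr]; field_simp; ring
  have e3 : D * (17 / 30) = D ^ 2 / 2 / (2 * (3 * D / 5)) + (3 * D / 5) / 4 := by
    field_simp; ring
  rw [e1, e2, e3] at this
  exact this

end Vale.Agent.P052.H515
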